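import Vale.Agent.P011.D4Z.H493.Ev
import Vale.Agent.P011.D4X.H657.Bas

/-!
Block D4Z: the semilinear map `J` and the product, at the embeddings `W`, `W ρ`, `W ρ²`.
-/

open Topology

set_option linter.unusedSectionVars false

namespace Vale.Agent.P011.D4Z

open Vale.Agent.P011.MPQ Vale.Agent.P011.D4 Vale.Agent.P011.D4.Oct Vale.Agent.P011.D4X
open scoped ComplexConjugate

section rel

variable {k L E : Type} [Field k] [Field L] [Field E] [Algebra k L] [Algebra k E] [Algebra L E]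
  [IsScalarTower k L E] [NeZero (2 : E)] {ρ σ : E ≃ₐ[k] E} {α : E} {a b c : kˣ} {q : Lˣ}
  [Algebra k ℂ] {W W' W'' : E →ₐ[k] ℂ}

/-- The semilinear map and the product. -/
theorem JW_tri_of (hσ : ∀ x, W (σ x) = conj (W x)) (hσ' : ∀ x, W' (σ x) = conj (W' x))
    (hσ'' : ∀ x, W'' (σ x) = conj (W'' x)) (h' : W' = cmp W ρ) (h'' : W'' = cmp W' ρ)
    (hJ : ∀ x y : OctL E a b c, Jm ρ σ α q (tri ρ x y) =
      rr ρ q • tri ρ (Jm ρ σ α q x) (Jm ρ σ α q y)) (x y : OctL ℂ a b c) :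
    JW W ρ α q (star x * star y) =
      W (rr ρ q) • (star (JW W' ρ α q x) * star (JW W'' ρ α q y)) := by
  refine ev_induction (W := W') (P := fun x => JW W ρ α q (star x * star y) =
      W (rr ρ q) • (star (JW W' ρ α q x) * star (JW W'' ρ α q y)))
    (fun x => ?_) (fun x x' h h' => ?_) (fun t x h => ?_) x
  · refine ev_induction (W := W'') (P := fun y => JW W ρ α q (star (ev W' x) * star y) =
      W (rr ρ q) • (star (JW W' ρ α q (ev W' x)) * star (JW W'' ρ α q y)))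
      (fun y => ?_) (fun y y' h h' => ?_) (fun t y h => ?_) y
    · rw [← ev_tri h' h'', ← ev_Jm hσ, ← ev_Jm hσ', ← ev_Jm hσ'', hJ, ev_smul, ev_tri h' h'']
    · rw [star_add, mul_add, JW_add, JW_add, star_add, mul_add, h, h', smul_add]
    · rw [star_smul_oct, mul_smul_oct, JW_smul, JW_smul, star_smul_oct, mul_smul_oct, h,
        smul_comm]
  · rw [star_add, add_mul, JW_add, JW_add, star_add, add_mul, h, h', smul_add]
  · rw [star_smul_oct, smul_mul_oct, JW_smul, JW_smul, star_smul_oct, smul_mul_oct, h,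
      smul_comm]

end rel

section key

variable {k L E : Type} [Field k] [Field L] [Field E] [Algebra k L] [Algebra k E] [Algebra L E]
  [IsScalarTower k L E] [NeZero (2 : E)] {ρ σ : E ≃ₐ[k] E} {ρL : L ≃ₐ[k] L} {α : E}
  {a b c : kˣ} {q : Lˣ} [Algebra k ℂ]

/-- The semilinear map and the product with two elements of the real form. -/
theorem JW_key_of (hρ : ∀ x, ρ (ρ (ρ x)) = x) (hcomm : ∀ x, σ (ρ x) = ρ (σ x))
    (hq : rr ρ q * ρ (rr ρ q) * ρ (ρ (rr ρ q)) = 1)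
    (hJ : ∀ x y : OctL E a b c, Jm ρ σ α q (tri ρ x y) =
      rr ρ q • tri ρ (Jm ρ σ α q x) (Jm ρ σ α q y))
    (hrr : σ (rr ρ q) = rr ρ q) {W W' W'' : E →ₐ[k] ℂ} (hσ : ∀ x, W (σ x) = conj (W x))
    (h' : W' = cmp W ρ) (h'' : W'' = cmp W' ρ) (hpos : 0 ≤ (W (rr ρ q)).re)
    {u v : OctL ℂ a b c} (hu : u ∈ VR W ρ α q) (hv : v ∈ VR W ρ α q) (x : OctL ℂ a b c) :
    JW W' ρ α q ((x * v) * star u) = ((JW W' ρ α q x) * v) * star u := by
  have hσ' : ∀ x, W' (σ x) = conj (W' x) := fun x => by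
    rw [h']
    change W (ρ (σ x)) = conj (W (ρ x))
    rw [← hcomm, hσ]
  have hσ'' : ∀ x, W'' (σ x) = conj (W'' x) := fun x => by
    rw [h'']
    change W' (ρ (σ x)) = conj (W' (ρ x))
    rw [← hcomm, hσ']
  have h3 : W = cmp W'' ρ := by
    rw [h'', h']
    ext x
    change W x = W (ρ (ρ (ρ x)))
    rw [hρ]
  -- the square root
  obtain ⟨s, hs⟩ : ∃ s : ℝ, s = Real.sqrt (W (rr ρ q)).re := ⟨_, rfl⟩
  have hs2 : (s : ℂ) * (s : ℂ) = W (rr ρ q) := by
    have h1 : (W (rr ρ q)).im = 0 := by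
      have h2 := hσ (rr ρ q)
      rw [hrr] at h2
      exact Complex.conj_eq_iff_im.1 h2.symm
    rw [← Complex.ofReal_mul, hs, Real.mul_self_sqrt hpos]
    exact Complex.ext rfl (by rw [Complex.ofReal_im, h1])
  have hu' : JW W ρ α q u = (s : ℂ) • u := by rw [hs]; exact hu
  have hv' : JW W ρ α q v = (s : ℂ) • v := by rw [hs]; exact hv
  have e1 : (x * v) * star u = star (star (x * v)) * star u := by rw [star_star]
  rw [e1, JW_tri_of hσ' hσ'' hσ h'' h3 hJ (star (x * v)) u, hu', star_mul x v,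
    JW_tri_of hσ'' hσ hσ' h3 h' hJ v x, hv']
  simp only [star_smul_oct, star_mul, star_star, mul_smul_oct, smul_mul_oct, smul_smul]
  have e2 : W' (rr ρ q) * ((s : ℂ) * (W'' (rr ρ q) * (s : ℂ))) = 1 := by
    have e3 : W' (rr ρ q) = W (ρ (rr ρ q)) := by rw [h']; rfl
    have e4 : W'' (rr ρ q) = W (ρ (ρ (rr ρ q))) := by rw [h'', h']; rfl
    rw [e3, e4]
    have e5 := congrArg W hq
    rw [map_mul, map_mul, map_one, ← hs2] at e5
    linear_combination e5
  have e6 : ∀ (z : ℂ) (y : OctL ℂ a b c), z = 1 → z • y = y := fun z y hz => by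
    rw [hz, one_smul]
  apply e6
  linear_combination e2

theorem JW_one_ne [NeZero (2 : ℂ)] {W : E →ₐ[k] ℂ} (hα : α * α = algebraMap k E a) :
    JW W ρ α q (1 : OctL ℂ a b c) ≠ 0 := by
  intro h
  have h1 := congrArg (fun x : OctL ℂ a b c => Oct.norm x) h
  have h2 : Oct.norm (JW W ρ α q (1 : OctL ℂ a b c)) =
      W (algebraMap L E q) * (W (algebraMap L E q) * W (ρ (algebraMap L E q))) := by
    have e1 : (cj (1 : OctL ℂ a b c)) = 1 := by
      apply co8_inj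
      funext i
      rw [co8_cj]
      fin_cases i <;> simp [co8]
    have hα' : W α * W α = algebraMap k ℂ a := by rw [← map_mul, hα, W.commutes]
    unfold JW
    rw [e1]
    unfold Oct.norm
    change nrd (_ * (1 : Qt (up ℂ a) (up ℂ b)) * _) - _ * nrd ((0 : Qt (up ℂ a) (up ℂ b)) * _) = _
    rw [mul_one, zero_mul, nrd_mul_q, nrd_mq hα', nrd_mq hα']
    simp [nrd]
  change Oct.norm (JW W ρ α q (1 : OctL ℂ a b c)) = Oct.norm 0 at h1
  rw [h2, Oct.norm_zero] at h1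
  have h3 : W (algebraMap L E q) ≠ 0 := (map_ne_zero _).2 ((map_ne_zero _).2 q.ne_zero)
  have h4 : W (ρ (algebraMap L E q)) ≠ 0 :=
    (map_ne_zero _).2 ((map_ne_zero ρ).2 ((map_ne_zero _).2 q.ne_zero))
  exact mul_ne_zero h3 (mul_ne_zero h3 h4) h1

theorem rr_cycle (hN : algebraMap L E (q : L) * ρ (algebraMap L E (q : L)) *
    ρ (ρ (algebraMap L E (q : L))) = 1) (hρ : ∀ x, ρ (ρ (ρ x)) = x) :
    rr ρ q * ρ (rr ρ q) * ρ (ρ (rr ρ q)) = 1 := by
  rw [rr]
  simp only [map_mul, hρ]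
  obtain ⟨x, hx⟩ : ∃ x, x = algebraMap L E (q : L) := ⟨_, rfl⟩
  rw [← hx] at hN ⊢
  have e : x * (x * ρ x) * (ρ x * (ρ x * ρ (ρ x))) * (ρ (ρ x) * (ρ (ρ x) * x)) =
      (x * ρ x * ρ (ρ x)) ^ 3 := by ring
  rw [e, hN, one_pow]

/-- The semilinear map and the product with two elements of the real form. -/
theorem JW_key (H : Hy ρ σ ρL α a b c q) {W W' W'' : E →ₐ[k] ℂ}
    (hσ : ∀ x, W (σ x) = conj (W x)) (h' : W' = cmp W ρ) (h'' : W'' = cmp W' ρ)
    (hpos : 0 ≤ (W (rr ρ q)).re) {u v : OctL ℂ a b c} (hu : u ∈ VR W ρ α q)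
    (hv : v ∈ VR W ρ α q) (x : OctL ℂ a b c) :
    JW W' ρ α q ((x * v) * star u) = ((JW W' ρ α q x) * v) * star u := by
  refine JW_key_of H.ρ3 H.comm (rr_cycle ?_ H.ρ3) (Jm_tri H) ?_ hσ h' h'' hpos hu hv x
  · rw [H.ρL', H.ρL', ← map_mul, ← map_mul, H.hq, map_one]
  · rw [rr, map_mul, map_mul, H.σL, H.comm, H.σL]

end key

end Vale.Agent.P011.D4Z
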